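import Vale.Agent.P061.Dense.Tree

/-!
# P061, dense graphs: counting a cut
-/

namespace Vale.Agent.P061.Dense

open Finset

variable {V : Type} [Fintype V] [DecidableEq V] (G : SimpleGraph V) [DecidableRel G.Adj]

theorem ncard_cut (S : Finset V) :
    {p : V × V | p.1 ∈ (S : Set V) ∧ p.2 ∉ (S : Set V) ∧ G.Adj p.1 p.2}.ncard = eP G S Sᶜ := by
  rw [show {p : V × V | p.1 ∈ (S : Set V) ∧ p.2 ∉ (S : Set V) ∧ G.Adj p.1 p.2}
      = (((S ×ˢ Sᶜ).filter fun p : V × V => G.Adj p.1 p.2) : Finset (V × V)) by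
    ext p; simp [and_assoc], Set.ncard_coe_finset, card_filter, sum_product]
  rfl

theorem sum_classes_le {α : Type} [DecidableEq α] (f : V → α) (S : Finset V) :
    ∑ c ∈ univ.image f, eP G (cls f c ∩ S) (cls f c \ S) ≤ eP G S Sᶜ := by
  have h1 : ∀ c ∈ univ.image f, eP G (cls f c ∩ S) (cls f c \ S) ≤
      ∑ u ∈ cls f c, if u ∈ S then ∑ v ∈ Sᶜ, (if G.Adj u v then 1 else 0) else 0 := by
    intro c _
    rw [eP, ← sum_filter, show (cls f c).filter (· ∈ S) = cls f c ∩ S by ext; simp]
    exact sum_le_sum fun u _ => sum_le_sum_of_subset fun v hv => by simp_all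
  refine (sum_le_sum h1).trans (le_of_eq ?_)
  rw [sum_cls f fun u => if u ∈ S then ∑ v ∈ Sᶜ, (if G.Adj u v then 1 else 0) else 0, ← sum_filter]
  simp [eP]

/-- A tree adapted to a good partition crosses every cut thinly. -/
theorem cut_bound {α : Type} [DecidableEq α] (t : ℕ) (f : V → α) (hf : Good G t f)
    (T : SimpleGraph V) [DecidableRel T.Adj] (hout : (outPairs f T).card ≤ 4 * t ^ 2)
    (hdeg : ∀ v, innerDeg f T v ≤ 20 * t ^ 2) (S : Finset V) (k : ℕ)
    (hk : k ≤ eP G S Sᶜ) (hkn : k ≤ Fintype.card V) :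
    k * eP T S Sᶜ ≤ (320 * t ^ 5 + 4 * t ^ 2) * eP G S Sᶜ := by
  classical
  set n := Fintype.card V
  set D := 20 * t ^ 2
  set M := 4 * t ^ 2
  set F := T ⊓ same f
  -- split the tree pairs
  have hsplit : eP T S Sᶜ ≤
      (outPairs f T).card + ∑ c ∈ univ.image f, eP F (cls f c ∩ S) (cls f c \ S) := by
    have e : eP T S Sᶜ = ((S ×ˢ Sᶜ).filter fun p : V × V => T.Adj p.1 p.2).card := by
      rw [card_filter, sum_product]; rfl
    rw [e]
    refine (card_le_card (show _ ⊆ outPairs f T ∪ ((univ.image f).biUnion fun c =>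
      ((cls f c ∩ S) ×ˢ (cls f c \ S)).filter fun p : V × V => F.Adj p.1 p.2) from fun p hp => ?_)).trans
      ((card_union_le _ _).trans (add_le_add le_rfl (card_biUnion_le.trans (le_of_eq ?_))))
    · obtain ⟨hpS, hT⟩ := mem_filter.1 hp
      obtain ⟨h1, h2⟩ := mem_product.1 hpS
      by_cases he : f p.1 = f p.2
      · refine mem_union_right _ (mem_biUnion.2 ⟨f p.1, mem_image_of_mem f (mem_univ _), ?_⟩)
        refine mem_filter.2 ⟨mem_product.2 ⟨by simp [cls, h1], by simp [cls, he, mem_compl.1 h2]⟩,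
          hT, hT.ne, he⟩
      · exact mem_union_left _ (mem_outPairs.2 ⟨hT, he⟩)
    · refine sum_congr rfl fun c _ => ?_
      rw [card_filter, sum_product]; rfl
  -- pairs inside one class
  have hcls : ∀ c ∈ univ.image f, n * eP F (cls f c ∩ S) (cls f c \ S) ≤
      4 * t * D * M * eP G (cls f c ∩ S) (cls f c \ S) := by
    intro c hc
    obtain ⟨v, -, rfl⟩ := mem_image.1 hc
    set X := cls f (f v) ∩ S
    set Y := cls f (f v) \ S
    have hXY : X.card + Y.card = (cls f (f v)).card := card_inter_add_card_sdiff _ _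
    have hYe : cls f (f v) \ X = Y := sdiff_inter_self_left _ _
    have hd := hf.dense v X inter_subset_left
    rw [hYe] at hd
    have hrow : ∀ A B : Finset V, eP F A B ≤ D * A.card := fun A B => by
      calc eP F A B ≤ ∑ _u ∈ A, D := sum_le_sum fun u _ => by
            refine le_trans ?_ (hdeg u)
            rw [← card_filter]
            exact card_le_card fun x hx => mem_innerNbr.2 (mem_filter.1 hx).2
        _ = D * A.card := by simp [mul_comm]
    have h1 := hrow X Y
    have h2 : eP F X Y ≤ D * Y.card := by rw [eP_comm F X Y]; exact hrow Y X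
    have h3 := hf.size v
    rw [← hXY] at h3
    calc n * eP F X Y ≤ 2 * t * (X.card + Y.card) * eP F X Y := Nat.mul_le_mul_right _ h3
      _ = 2 * t * (X.card * eP F X Y + Y.card * eP F X Y) := by ring
      _ ≤ 2 * t * (X.card * (D * Y.card) + Y.card * (D * X.card)) :=
          Nat.mul_le_mul_left _ (add_le_add (Nat.mul_le_mul_left _ h2) (Nat.mul_le_mul_left _ h1))
      _ = 4 * t * D * (X.card * Y.card) := by ring
      _ ≤ 4 * t * D * (M * eP G X Y) := Nat.mul_le_mul_left _ hd
      _ = _ := by ring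
  calc k * eP T S Sᶜ
      ≤ k * (outPairs f T).card + k * ∑ c ∈ univ.image f, eP F (cls f c ∩ S) (cls f c \ S) :=
        (Nat.mul_le_mul_left k hsplit).trans (le_of_eq (mul_add _ _ _))
    _ ≤ eP G S Sᶜ * (4 * t ^ 2) + ∑ c ∈ univ.image f, 4 * t * D * M * eP G (cls f c ∩ S) (cls f c \ S) :=
        add_le_add (Nat.mul_le_mul hk hout) (by
          refine (Nat.mul_le_mul_right _ hkn).trans ?_
          rw [mul_sum]
          exact sum_le_sum hcls)
    _ ≤ eP G S Sᶜ * (4 * t ^ 2) + 4 * t * D * M * eP G S Sᶜ := by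
        rw [← mul_sum]
        exact add_le_add le_rfl (Nat.mul_le_mul_left _ (sum_classes_le G f S))
    _ = _ := by simp only [D, M]; ring

end Vale.Agent.P061.Dense
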