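import Mathlib

/-!
# P061, dense graphs: a partition into few cut-dense clusters

A minimiser of `weight * crossing pairs + pairs in the same class` has at most `2t` classes, every vertex keeps
a linear number of neighbours in its class, and every split of a class cuts quadratically many edges.
-/

namespace Vale.Agent.P061.Dense

open Finset

variable {V : Type} [Fintype V] [DecidableEq V] (G : SimpleGraph V) [DecidableRel G.Adj]

/-- The number of ordered adjacent pairs from `X` to `Y`. -/
def eP (X Y : Finset V) : ℕ := ∑ u ∈ X, ∑ v ∈ Y, if G.Adj u v then 1 else 0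

/-- The class with colour `c`. -/
def cls {α : Type} [DecidableEq α] (f : V → α) (c : α) : Finset V := univ.filter fun v => f v = c

/-- The weight of an ordered pair. -/
def pairW {α : Type} [DecidableEq α] (M : ℕ) (f : V → α) (u v : V) : ℕ :=
  if f u = f v then 1 else if G.Adj u v then M else 0

/-- The quantity to minimise. -/
def phi {α : Type} [DecidableEq α] (M : ℕ) (f : V → α) : ℕ := ∑ u, ∑ v, pairW G M f u v

theorem eP_comm (X Y : Finset V) : eP G X Y = eP G Y X := by
  rw [eP, eP, sum_comm]
  simp [G.adj_comm]

theorem double_sum_indicator (X Y : Finset V) (w : V → V → ℕ) :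
    ∑ u, ∑ v, (if u ∈ X ∧ v ∈ Y then w u v else 0) = ∑ u ∈ X, ∑ v ∈ Y, w u v := by
  simp [ite_and, ← sum_filter, Finset.sum_ite_irrel, Finset.sum_ite_mem, Finset.univ_inter]

theorem double_sum_indicator' (X Y : Finset V) (w : V → V → ℕ) :
    ∑ u, ∑ v, (if v ∈ X ∧ u ∈ Y then w v u else 0) = ∑ u ∈ X, ∑ v ∈ Y, w u v := by
  rw [sum_comm, double_sum_indicator]

/-- Recolouring `X ⊆ cls f a` by `c`. -/
theorem phi_recolour {α : Type} [DecidableEq α] (M : ℕ) (f : V → α) (a c : α) (hca : c ≠ a)
    (X : Finset V) (hX : X ⊆ cls f a) :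
    phi G M (fun v => if v ∈ X then c else f v)
        + 2 * (X.card * (cls f a \ X).card + M * eP G X (cls f c))
      = phi G M f + 2 * (M * eP G X (cls f a \ X) + X.card * (cls f c).card) := by
  set A := cls f a \ X
  set Y := cls f c
  set g : V → α := fun v => if v ∈ X then c else f v
  have hXa : ∀ u ∈ X, f u = a := fun u hu => (mem_filter.1 (hX hu)).2
  have key : ∀ u v : V,
      pairW G M g u v
        + ((if u ∈ X ∧ v ∈ A then 1 else 0) + (if u ∈ X ∧ v ∈ Y then (if G.Adj u v then M else 0) else 0))
        + ((if v ∈ X ∧ u ∈ A then 1 else 0) + (if v ∈ X ∧ u ∈ Y then (if G.Adj v u then M else 0) else 0))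
      = pairW G M f u v
        + ((if u ∈ X ∧ v ∈ A then (if G.Adj u v then M else 0) else 0) + (if u ∈ X ∧ v ∈ Y then 1 else 0))
        + ((if v ∈ X ∧ u ∈ A then (if G.Adj v u then M else 0) else 0) + (if v ∈ X ∧ u ∈ Y then 1 else 0)) := by
    intro u v
    have mA : ∀ w, w ∈ A ↔ f w = a ∧ w ∉ X := fun w => by simp [A, cls]
    have mY : ∀ w, w ∈ Y ↔ f w = c := fun w => by simp [Y, cls]
    simp only [mA, mY, pairW, g, G.adj_comm v u]
    by_cases hu : u ∈ X <;> by_cases hv : v ∈ X
    · simp [hu, hv, hXa u hu, hXa v hv, hca.symm]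
    · have hua := hXa u hu
      by_cases h1 : f v = a
      · simp [hu, hv, hua, h1, hca, hca.symm]; omega
      · by_cases h2 : f v = c
        · simp [hu, hv, hua, h2, hca, hca.symm]; omega
        · simp [hu, hv, hua, h1, h2, Ne.symm h1, Ne.symm h2]
    · have hva := hXa v hv
      by_cases h1 : f u = a
      · simp [hu, hv, hva, h1, hca.symm]; omega
      · by_cases h2 : f u = c
        · simp [hu, hv, hva, h2, hca, hca.symm]; omega
        · simp [hu, hv, hva, h1, h2]
    · simp [hu, hv]
  have hs := Finset.sum_congr (s₁ := (univ : Finset V)) rfl fun u _ =>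
    Finset.sum_congr (s₁ := (univ : Finset V)) rfl fun v _ => key u v
  simp only [sum_add_distrib] at hs
  rw [double_sum_indicator X A (fun _ _ => 1), double_sum_indicator' X A (fun _ _ => 1),
    double_sum_indicator X Y (fun _ _ => 1), double_sum_indicator' X Y (fun _ _ => 1),
    double_sum_indicator X A (fun u v => if G.Adj u v then M else 0),
    double_sum_indicator' X A (fun u v => if G.Adj u v then M else 0),
    double_sum_indicator X Y (fun u v => if G.Adj u v then M else 0),
    double_sum_indicator' X Y (fun u v => if G.Adj u v then M else 0)] at hs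
  have hM : ∀ Z : Finset V, ∑ u ∈ X, ∑ v ∈ Z, (if G.Adj u v then M else 0) = M * eP G X Z := by
    intro Z
    rw [eP, Finset.mul_sum]
    refine Finset.sum_congr rfl fun u _ => ?_
    rw [Finset.mul_sum]
    simp [mul_ite]
  simp only [hM, Finset.sum_const, smul_eq_mul, mul_one] at hs
  simp only [phi]
  omega

/-- The properties of a minimiser. -/
structure Good (t : ℕ) {α : Type} [DecidableEq α] (f : V → α) : Prop where
  card_le : (univ.image f).card ≤ 2 * t
  size : ∀ v, Fintype.card V ≤ 2 * t * (cls f (f v)).card
  inner : ∀ v, Fintype.card V ≤ 4 * t ^ 2 * ((cls f (f v)).filter (G.Adj v)).card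
  dense : ∀ (v : V) (X : Finset V), X ⊆ cls f (f v) →
    X.card * (cls f (f v) \ X).card ≤ 4 * t ^ 2 * eP G X (cls f (f v) \ X)

theorem sum_cls {α : Type} [DecidableEq α] (f : V → α) (w : V → ℕ) :
    ∑ c ∈ univ.image f, ∑ v ∈ cls f c, w v = ∑ v, w v :=
  Finset.sum_fiberwise_of_maps_to (fun v _ => mem_image_of_mem f (mem_univ v)) w

theorem exists_good (t : ℕ) (ht : 1 ≤ t) (hdeg : ∀ v, Fintype.card V ≤ t * G.degree v) :
    ∃ f : V → Fin (Fintype.card V + 1), Good G t f := by
  set n := Fintype.card V
  set M := 4 * t ^ 2 with hM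
  obtain ⟨f, -, hmin⟩ := Finset.exists_min_image (univ : Finset (V → Fin (n + 1)))
    (phi G M) univ_nonempty
  have move : ∀ (a c : Fin (n + 1)) (X : Finset V), c ≠ a → X ⊆ cls f a →
      X.card * (cls f a \ X).card + M * eP G X (cls f c) ≤
        M * eP G X (cls f a \ X) + X.card * (cls f c).card := by
    intro a c X hca hX
    have h := phi_recolour G M f a c hca X hX
    have h2 := hmin (fun v => if v ∈ X then c else f v) (mem_univ _)
    omega
  have hn : ∀ v, ∑ c ∈ univ.image f, ((cls f c).filter (G.Adj v)).card = G.degree v := by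
    intro v
    simp only [card_filter]
    rw [sum_cls f (fun u => if G.Adj v u then 1 else 0), ← card_filter,
      ← G.card_neighborFinset_eq_degree, G.neighborFinset_eq_filter]
  have hcl : ∑ c ∈ univ.image f, (cls f c).card = n := by
    simp only [card_eq_sum_ones]
    rw [sum_cls f (fun _ => 1)]
    simp [n]
  have hsize : ∀ v, n ≤ 2 * t * (cls f (f v)).card := by
    intro v
    set a := f v
    set A := cls f a with hA
    have hpos : 0 < A.card := card_pos.2 ⟨v, by simp [hA, cls, a]⟩
    have h1 : ∀ c ∈ univ.image f, M * eP G A (cls f c) ≤ A.card * (cls f c).card +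
        (if c = a then M * (A.card * A.card) else 0) := by
      intro c _
      by_cases hc : c = a
      · subst hc
        rw [if_pos rfl]
        refine le_trans ?_ (Nat.le_add_left _ _)
        refine Nat.mul_le_mul_left _ ?_
        calc eP G A A ≤ ∑ _u ∈ A, ∑ _v ∈ A, 1 :=
              sum_le_sum fun u _ => sum_le_sum fun w _ => by split <;> simp
          _ = A.card * A.card := by simp
      · have := move a c A hc le_rfl
        simp [hA, eP] at this ⊢
        rw [if_neg hc]
        omega
    have h2 := sum_le_sum h1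
    rw [← mul_sum, sum_add_distrib, ← mul_sum, hcl, sum_ite_eq', if_pos (mem_image_of_mem f (mem_univ v))]
      at h2
    have h3 : ∑ c ∈ univ.image f, eP G A (cls f c) = ∑ u ∈ A, G.degree u := by
      simp only [eP]
      rw [sum_comm]
      exact sum_congr rfl fun u _ => by
        rw [← hn u]
        exact sum_congr rfl fun c _ => (card_filter (G.Adj u) (cls f c)).symm
    have h4 : A.card * n ≤ t * ∑ u ∈ A, G.degree u := by
      rw [mul_sum, ← smul_eq_mul, ← sum_const]
      exact sum_le_sum fun u _ => hdeg u
    rw [h3] at h2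
    have h5 : M * (A.card * n) ≤ t * (A.card * n + M * (A.card * A.card)) := by
      calc M * (A.card * n) ≤ M * (t * ∑ u ∈ A, G.degree u) := Nat.mul_le_mul_left _ h4
        _ = t * (M * ∑ u ∈ A, G.degree u) := by ring
        _ ≤ _ := Nat.mul_le_mul_left _ h2
    have h6 : M * n ≤ t * (n + M * A.card) := by
      refine Nat.le_of_mul_le_mul_left ?_ hpos
      linarith [h5]
    rw [hM] at h6
    have h7 : t * n ≤ 2 * t ^ 2 * n := by nlinarith [Nat.mul_le_mul_right n (Nat.mul_le_mul_left t ht)]
    have h8 : t ^ 2 * (2 * n) ≤ t ^ 2 * (4 * t * A.card) := by nlinarith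
    have := Nat.le_of_mul_le_mul_left h8 (by positivity)
    linarith
  have hcard : (univ.image f).card ≤ 2 * t := by
    rcases Nat.eq_zero_or_pos n with h0 | h0
    · have : IsEmpty V := Fintype.card_eq_zero_iff.1 h0
      simp
    refine Nat.le_of_mul_le_mul_left ?_ h0
    calc n * (univ.image f).card = ∑ _c ∈ univ.image f, n := by simp [mul_comm]
      _ ≤ ∑ c ∈ univ.image f, 2 * t * (cls f c).card := sum_le_sum fun c hc => by
          obtain ⟨v, -, rfl⟩ := mem_image.1 hc
          exact hsize v
      _ = n * (2 * t) := by rw [← mul_sum, hcl]; ring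
  refine ⟨f, hcard, hsize, fun v => ?_, fun v X hX => ?_⟩
  · set a := f v
    have hv : ({v} : Finset V) ⊆ cls f a := by simp [cls, a]
    set N := ((cls f a).filter (G.Adj v)).card
    have e1 : ∀ Z : Finset V, eP G {v} Z = (Z.filter (G.Adj v)).card := fun Z => by
      rw [eP, sum_singleton, card_filter]
    have hNa : eP G {v} (cls f a \ {v}) = N := by
      rw [e1]
      congr 1
      ext w
      simp only [mem_filter, mem_sdiff, mem_singleton]
      exact ⟨fun h => ⟨h.1.1, h.2⟩, fun h => ⟨⟨h.1, fun e => h.2.ne e.symm⟩, h.2⟩⟩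
    have h1 : ∀ c ∈ univ.image f,
        M * ((cls f c).filter (G.Adj v)).card ≤ M * N + (cls f c).card := by
      intro c _
      by_cases hc : c = a
      · subst hc; exact Nat.le_add_right _ _
      · have := move a c {v} hc hv
        rw [hNa, e1] at this
        simp only [card_singleton, one_mul] at this
        omega
    have h2 := sum_le_sum h1
    rw [← mul_sum, sum_add_distrib, hn, hcl, sum_const, smul_eq_mul] at h2
    have h3 : (univ.image f).card * (M * N) ≤ 2 * t * (M * N) := Nat.mul_le_mul_right _ hcard
    have h4 : M * n ≤ t * (2 * t * (M * N) + n) :=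
      (Nat.mul_le_mul_left M (hdeg v)).trans (by
        rw [← mul_assoc, mul_comm M t, mul_assoc]
        exact Nat.mul_le_mul_left _ (by linarith))
    rw [hM] at h4
    have h7 : t * n ≤ t ^ 2 * n := by nlinarith [Nat.mul_le_mul_right n (Nat.mul_le_mul_left t ht)]
    have h8 : t ^ 2 * (3 * n) ≤ t ^ 2 * (8 * t ^ 2 * N) := by nlinarith
    have := Nat.le_of_mul_le_mul_left h8 (by positivity)
    nlinarith
  · obtain ⟨c, hc⟩ : ∃ c, c ∉ univ.image f := by
      by_contra h
      push_neg at h
      have h2 : (univ : Finset (Fin (n + 1))).card ≤ (univ.image f).card :=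
        card_le_card fun c _ => h c
      have := card_image_le (s := (univ : Finset V)) (f := f)
      simp at this h2
      omega
    have hce : cls f c = ∅ := by
      ext w
      simp only [cls, mem_filter, mem_univ, true_and, notMem_empty, iff_false]
      exact fun e => hc (e ▸ mem_image_of_mem f (mem_univ w))
    have hne : c ≠ f v := fun e => hc (e ▸ mem_image_of_mem f (mem_univ v))
    have := move (f v) c X hne hX
    simp [hce, eP] at this
    simpa [hM, eP] using this

end Vale.Agent.P061.Dense
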