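import Vale.Agent.P061.Dense.Partition

/-!
# P061, dense graphs: a spanning tree adapted to a cut-dense partition
-/

namespace Vale.Agent.P061.Dense

open Finset

variable {V : Type} [Fintype V] [DecidableEq V]

/-- Pairs in the same class. -/
def same {α : Type} (f : V → α) : SimpleGraph V where
  Adj u v := u ≠ v ∧ f u = f v
  symm := ⟨fun _ _ h => ⟨h.1.symm, h.2.symm⟩⟩
  loopless := ⟨fun _ h => h.1 rfl⟩

/-- A tree edge replaced by an edge across the two sides. -/
theorem swap_isTree {T : SimpleGraph V} (hT : T.IsTree) {a b u w : V}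
    (hr : ¬ (T.deleteEdges {s(a, b)}).Reachable u w) :
    (T.deleteEdges {s(a, b)} ⊔ SimpleGraph.edge u w).IsTree := by
  set D := T.deleteEdges {s(a, b)}
  have hside : ∀ x, D.Reachable x a ∨ D.Reachable x b := by
    intro x
    obtain ⟨p⟩ := hT.connected x a
    suffices H : ∀ {x y : V}, T.Walk x y → (D.Reachable y a ∨ D.Reachable y b) →
        (D.Reachable x a ∨ D.Reachable x b) from H p (Or.inl (.refl a))
    intro x y p
    induction p with
    | nil => exact id
    | @cons x z y hxz q ih =>
      intro hy
      by_cases he : s(x, z) = s(a, b)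
      · rcases Sym2.eq_iff.1 he with ⟨rfl, -⟩ | ⟨rfl, -⟩
        · exact Or.inl (.refl _)
        · exact Or.inr (.refl _)
      · have h1 : D.Reachable x z :=
          SimpleGraph.Adj.reachable (by simp [D, SimpleGraph.deleteEdges_adj, hxz, he])
        exact (ih hy).imp h1.trans h1.trans
  have hne : u ≠ w := fun h => hr (h ▸ .refl u)
  refine ⟨?_, (hT.isAcyclic.anti (SimpleGraph.deleteEdges_le _)).sup_edge_of_not_reachable hr⟩
  have hle : D ≤ D ⊔ SimpleGraph.edge u w := le_sup_left
  have huw : (D ⊔ SimpleGraph.edge u w).Reachable u w :=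
    SimpleGraph.Adj.reachable (Or.inr (by simp [SimpleGraph.edge_adj, hne]))
  have hab : (D ⊔ SimpleGraph.edge u w).Reachable a b := by
    rcases hside u with hu | hu <;> rcases hside w with hw | hw
    · exact absurd (hu.trans hw.symm) hr
    · exact ((hu.symm.mono hle).trans huw).trans (hw.mono hle)
    · exact ((hw.symm.mono hle).trans huw.symm).trans (hu.mono hle)
    · exact absurd (hu.trans hw.symm) hr
  have hbase : ∀ x, (D ⊔ SimpleGraph.edge u w).Reachable x a := fun x =>
    (hside x).elim (·.mono hle) fun h => (h.mono hle).trans hab.symm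
  have : Nonempty V := ⟨a⟩
  exact ⟨fun x y => (hbase x).trans (hbase y).symm⟩

theorem swap_adj {T : SimpleGraph V} {a b u w x y : V}
    (h : (T.deleteEdges {s(a, b)} ⊔ SimpleGraph.edge u w).Adj x y) :
    (T.Adj x y ∧ s(x, y) ≠ s(a, b)) ∨ (x = u ∧ y = w) ∨ (x = w ∧ y = u) := by
  rcases h with h | h
  · simp [SimpleGraph.deleteEdges_adj] at h
    exact Or.inl ⟨h.1, by simpa using h.2⟩
  · simp [SimpleGraph.edge_adj] at h
    exact Or.inr h.1

variable (G : SimpleGraph V) [DecidableRel G.Adj] {α : Type} [DecidableEq α]

/-- Crossing pairs of a tree. -/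
noncomputable def outPairs (f : V → α) (T : SimpleGraph V) : Finset (V × V) :=
  open Classical in univ.filter fun p => T.Adj p.1 p.2 ∧ f p.1 ≠ f p.2

/-- Neighbours inside the own class. -/
noncomputable def innerNbr (f : V → α) (T : SimpleGraph V) (v : V) : Finset V :=
  open Classical in univ.filter ((T ⊓ same f).Adj v)

/-- Degree inside the own class. -/
noncomputable def innerDeg (f : V → α) (T : SimpleGraph V) (v : V) : ℕ := (innerNbr f T v).card

theorem mem_outPairs {f : V → α} {T : SimpleGraph V} {p : V × V} :
    p ∈ outPairs f T ↔ T.Adj p.1 p.2 ∧ f p.1 ≠ f p.2 := by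
  classical simp [outPairs]

theorem mem_innerNbr {f : V → α} {T : SimpleGraph V} {v x : V} :
    x ∈ innerNbr f T v ↔ (T ⊓ same f).Adj v x := by
  classical simp [innerNbr]

/-- The second objective. -/
noncomputable def sqSum (f : V → α) (T : SimpleGraph V) : ℕ := ∑ v, innerDeg f T v ^ 2

theorem exists_adapted_tree (t : ℕ) (ht : 1 ≤ t) (f : V → α) (hf : Good G t f) (hG : G.Connected) :
    ∃ T : SimpleGraph V, T ≤ G ∧ T.IsTree ∧ (outPairs f T).card ≤ 4 * t ^ 2 ∧
      ∀ v, innerDeg f T v ≤ 20 * t ^ 2 := by
  classical
  set n := Fintype.card V with hn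
  have hne : (univ.filter fun T : SimpleGraph V => T ≤ G ∧ T.IsTree).Nonempty := by
    obtain ⟨T, h1, h2⟩ := hG.exists_isTree_le
    exact ⟨T, by simp [h1, h2]⟩
  obtain ⟨T, hTm, hmin⟩ := exists_min_image _
    (fun T : SimpleGraph V => toLex ((outPairs f T).card, sqSum f T)) hne
  obtain ⟨hTG, hT⟩ := (mem_filter.1 hTm).2
  have better : ∀ T' : SimpleGraph V, T' ≤ G → T'.IsTree → (outPairs f T').card ≤ (outPairs f T).card →
      (outPairs f T).card = (outPairs f T').card ∧ sqSum f T ≤ sqSum f T' := by
    intro T' h1 h2 h3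
    have h4 := hmin T' (mem_filter.2 ⟨mem_univ _, h1, h2⟩)
    rw [Prod.Lex.le_iff] at h4
    rcases h4 with h4 | h4
    · simp at h4; omega
    · exact h4
  set F := T ⊓ same f with hF
  have hbr : ∀ {a b : V}, T.Adj a b → ¬ (T.deleteEdges {s(a, b)}).Reachable a b := fun h =>
    SimpleGraph.isBridge_iff.1 (SimpleGraph.isAcyclic_iff_forall_adj_isBridge.1 hT.isAcyclic h)
  have hFf : ∀ {x y : V}, F.Reachable x y → f x = f y := by
    intro x y h
    obtain ⟨p⟩ := h
    induction p with
    | nil => rfl
    | cons h _ ih => exact h.2.2.trans ih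
  -- same class neighbours are joined inside the class
  have step : ∀ u w, G.Adj u w → f u = f w → F.Reachable u w := by
    intro u w huw hfw
    obtain ⟨p, hp⟩ := hT.connected.exists_isPath u w
    by_cases hall : ∀ e ∈ p.edges, e ∈ F.edgeSet
    · exact ⟨p.transfer F hall⟩
    push_neg at hall
    obtain ⟨e, hep, heF⟩ := hall
    induction e using Sym2.ind with
    | _ a b =>
      have hab : T.Adj a b := p.adj_of_mem_edges hep
      have hfab : f a ≠ f b := fun h => heF ⟨hab, hab.ne, h⟩
      have hr : ¬ (T.deleteEdges {s(a, b)}).Reachable u w := by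
        rintro ⟨q⟩
        have hq := q.toPath.2.mapLe (SimpleGraph.deleteEdges_le {s(a, b)})
        have := hT.isAcyclic.path_unique ⟨p, hp⟩ ⟨_, hq⟩
        have h2 : p.edges = (q.toPath : (T.deleteEdges {s(a, b)}).Walk u w).edges := by
          have h3 := congrArg Subtype.val this
          simp only at h3
          rw [h3, SimpleGraph.Walk.edges_mapLe_eq_edges]
        rw [h2] at hep
        have := (q.toPath : (T.deleteEdges {s(a, b)}).Walk u w).edges_subset_edgeSet hep
        simp at this
      exfalso
      set T' := T.deleteEdges {s(a, b)} ⊔ SimpleGraph.edge u w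
      have hT'G : T' ≤ G := sup_le ((SimpleGraph.deleteEdges_le _).trans hTG)
        (by intro x y h; simp [SimpleGraph.edge_adj] at h
            rcases h.1 with ⟨rfl, rfl⟩ | ⟨rfl, rfl⟩
            exacts [huw, huw.symm])
      have hlt : (outPairs f T').card < (outPairs f T).card := by
        refine card_lt_card ⟨?_, fun hsub => ?_⟩
        · intro q hq
          obtain ⟨h1, h2⟩ := mem_outPairs.1 hq
          rcases swap_adj h1 with h | ⟨e1, e2⟩ | ⟨e1, e2⟩
          · exact mem_outPairs.2 ⟨h.1, h2⟩
          · exact absurd (by rw [e1, e2]; exact hfw) h2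
          · exact absurd (by rw [e1, e2]; exact hfw.symm) h2
        · have := hsub (show (a, b) ∈ outPairs f T from mem_outPairs.2 ⟨hab, hfab⟩)
          obtain ⟨h1, -⟩ := mem_outPairs.1 this
          rcases swap_adj h1 with h | ⟨e1, e2⟩ | ⟨e1, e2⟩
          · exact h.2 rfl
          · exact hfab ((congrArg f e1).trans (hfw.trans (congrArg f e2).symm))
          · exact hfab ((congrArg f e1).trans (hfw.symm.trans (congrArg f e2).symm))
      have := better T' hT'G (swap_isTree hT hr) hlt.le
      omega
  have conn : ∀ u w, f u = f w → F.Reachable u w := by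
    intro u w huw
    set X := (cls f (f u)).filter (F.Reachable u)
    by_contra hw
    have hwX : w ∈ cls f (f u) \ X := by simp [X, cls, huw, hw]
    have huX : u ∈ X := by simp [X, cls]
    have h1 := hf.dense u X (filter_subset _ _)
    have h2 : 0 < X.card * (cls f (f u) \ X).card :=
      Nat.mul_pos (card_pos.2 ⟨u, huX⟩) (card_pos.2 ⟨w, hwX⟩)
    have h3 : eP G X (cls f (f u) \ X) ≠ 0 := fun h => by rw [h, mul_zero] at h1; omega
    obtain ⟨x, hx, hx'⟩ := exists_ne_zero_of_sum_ne_zero h3
    obtain ⟨z, hz, hz'⟩ := exists_ne_zero_of_sum_ne_zero hx'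
    have hadj : G.Adj x z := by by_contra h; simp [h] at hz'
    simp only [X, mem_sdiff, mem_filter, cls, mem_univ, true_and, not_and] at hx hz
    exact hz.2 hz.1 (hx.2.trans (step x z hadj (hx.1.trans hz.1.symm)))
  refine ⟨T, hTG, hT, ?_, ?_⟩
  · have hinj : Set.InjOn (fun p : V × V => (f p.1, f p.2)) (outPairs f T : Set (V × V)) := by
      rintro ⟨a, b⟩ h ⟨a', b'⟩ h' heq
      simp [outPairs] at h h' heq
      by_contra hne
      have he : s(a', b') ≠ s(a, b) := by
        intro e
        rcases Sym2.eq_iff.1 e with ⟨rfl, rfl⟩ | ⟨rfl, rfl⟩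
        · exact hne rfl
        · exact h.2 heq.1
      have hFle : F ≤ T.deleteEdges {s(a, b)} := fun x y hxy => by
        refine SimpleGraph.deleteEdges_adj.2 ⟨hxy.1, fun e => ?_⟩
        rcases Sym2.eq_iff.1 (Set.mem_singleton_iff.1 e) with ⟨rfl, rfl⟩ | ⟨rfl, rfl⟩
        · exact h.2 hxy.2.2
        · exact h.2 hxy.2.2.symm
      refine hbr h.1 (((conn a a' heq.1).mono hFle).trans ((SimpleGraph.Adj.reachable ?_).trans
        ((conn b b' heq.2).mono hFle).symm))
      exact SimpleGraph.deleteEdges_adj.2 ⟨h'.1, fun e => he (Set.mem_singleton_iff.1 e)⟩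
    calc (outPairs f T).card = ((outPairs f T).image fun p => (f p.1, f p.2)).card :=
          (card_image_of_injOn hinj).symm
      _ ≤ (univ.image f ×ˢ univ.image f).card := card_le_card fun q hq => by
          obtain ⟨p, -, rfl⟩ := mem_image.1 hq
          simp
      _ ≤ 4 * t ^ 2 := by
          rw [card_product]
          calc _ ≤ (2 * t) * (2 * t) := Nat.mul_le_mul hf.card_le hf.card_le
            _ = _ := by ring
  · intro v
    by_contra hbig
    push_neg at hbig
    set N := innerNbr f T v
    have hNcard : N.card = innerDeg f T v := rfl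
    set a := N.card
    set F' := F.deleteIncidenceSet v
    set B : V → Finset V := fun w => univ.filter (F'.Reachable w)
    have hvB : ∀ w ∈ N, v ∉ B w := by
      intro w hw hv
      obtain ⟨p⟩ := (mem_filter.1 hv).2.symm
      cases p with
      | nil => exact (mem_innerNbr.1 hw).ne rfl
      | cons h _ => exact (SimpleGraph.deleteIncidenceSet_adj.1 h).2.1 rfl
    have hF'le : ∀ w, F' ≤ T.deleteEdges {s(v, w)} := fun w x y hxy => by
      obtain ⟨h1, h2, h3⟩ := SimpleGraph.deleteIncidenceSet_adj.1 hxy
      refine SimpleGraph.deleteEdges_adj.2 ⟨h1.1, fun e => ?_⟩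
      rcases Sym2.eq_iff.1 (Set.mem_singleton_iff.1 e) with ⟨rfl, -⟩ | ⟨-, rfl⟩
      · exact h2 rfl
      · exact h3 rfl
    have hdisj : (N : Set V).PairwiseDisjoint B := by
      intro w hw w' hw' hne
      refine Finset.disjoint_left.2 fun x hx hx' => ?_
      have hr : F'.Reachable w w' := (mem_filter.1 hx).2.trans (mem_filter.1 hx').2.symm
      have hvw : T.Adj v w := (mem_innerNbr.1 hw).1
      have hvw' : T.Adj v w' := (mem_innerNbr.1 hw').1
      refine hbr hvw ((SimpleGraph.Adj.reachable ?_).trans (hr.mono (hF'le w)).symm)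
      refine SimpleGraph.deleteEdges_adj.2 ⟨hvw', fun e => ?_⟩
      rcases Sym2.eq_iff.1 (Set.mem_singleton_iff.1 e) with ⟨-, h⟩ | ⟨h, -⟩
      · exact hne h.symm
      · exact hvw.ne h
    have ha : 20 * t ^ 2 < a := by omega
    have hsumB : ∑ w ∈ N, (B w).card ≤ n := by
      rw [← card_biUnion hdisj]
      exact card_le_univ _
    obtain ⟨w, hwN, hwmin⟩ := exists_min_image N (fun w => (B w).card)
      (card_pos.1 (by omega))
    have hBn : a * (B w).card ≤ n :=
      le_trans (by simpa using card_nsmul_le_sum N (fun w => (B w).card) _ hwmin) hsumB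
    set high := univ.filter fun u => a - 1 ≤ innerDeg f T u
    have hdeg2 : ∑ u, innerDeg f T u ≤ 2 * n := by
      calc ∑ u, innerDeg f T u ≤ ∑ u, T.degree u := sum_le_sum fun u _ => by
            rw [← T.card_neighborFinset_eq_degree, innerDeg]
            exact card_le_card fun x hx => by simpa using (mem_innerNbr.1 hx).1
        _ = 2 * T.edgeFinset.card := T.sum_degrees_eq_twice_card_edges
        _ ≤ 2 * n := by have := hT.card_edgeFinset; omega
    have hhigh : (a - 1) * high.card ≤ 2 * n := by
      refine le_trans ?_ hdeg2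
      calc (a - 1) * high.card = ∑ _u ∈ high, (a - 1) := by simp [mul_comm]
        _ ≤ ∑ u ∈ high, innerDeg f T u := sum_le_sum fun u hu => (mem_filter.1 hu).2
        _ ≤ _ := sum_le_sum_of_subset (subset_univ _)
    have hFvw : F.Adj v w := (mem_innerNbr.1 hwN)
    have hdeg_n : a < n := by
      have : N ⊆ univ.erase v := fun x hx => by
        simp [(mem_innerNbr.1 hx).ne.symm]
      have := card_le_card this
      simp at this
      have : 0 < n := Fintype.card_pos_iff.2 ⟨v⟩
      omega
    obtain ⟨u, huN, huout⟩ : ∃ u ∈ (cls f (f w)).filter (G.Adj w),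
        u ∉ B w ∪ ({v} ∪ high) := by
      by_contra h
      push_neg at h
      have h1 := card_le_card (show (cls f (f w)).filter (G.Adj w) ⊆ B w ∪ ({v} ∪ high) from h)
      have h2 := hf.inner w
      have h3 := (card_union_le (B w) ({v} ∪ high)).trans
        (add_le_add le_rfl ((card_union_le _ _).trans (le_of_eq (by rw [card_singleton]))))
      have h4 : n ≤ 4 * t ^ 2 * ((B w).card + (1 + high.card)) :=
        h2.trans (Nat.mul_le_mul_left _ (h1.trans h3))
      have h5 : 20 * t ^ 2 * (B w).card ≤ n :=
        (Nat.mul_le_mul_right _ ha.le).trans hBn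
      have h6 : 20 * t ^ 2 * high.card ≤ 2 * n :=
        (Nat.mul_le_mul_right _ (by omega)).trans hhigh
      have h7 : 20 * t ^ 2 < n := lt_trans ha hdeg_n
      linarith
    simp only [mem_union, mem_singleton, not_or] at huout
    obtain ⟨huB, huv, huh⟩ := huout
    obtain ⟨huc, hwu⟩ := mem_filter.1 huN
    have hfwu : f w = f u := (mem_filter.1 huc).2.symm
    have hb : innerDeg f T u + 2 ≤ a := by
      have : ¬ (a - 1 ≤ innerDeg f T u) := fun h => huh (mem_filter.2 ⟨mem_univ _, h⟩)
      omega
    have hr : ¬ (T.deleteEdges {s(v, w)}).Reachable w u := by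
      intro hreach
      obtain ⟨p, hp⟩ := (conn w u hfwu).exists_isPath
      by_cases hv : v ∈ p.support
      · have hq := (p.dropUntil v hv)
        have hwnot : w ∉ (p.dropUntil v hv).support := by
          intro hmem
          have hnd := hp.support_nodup
          rw [← p.take_spec hv, SimpleGraph.Walk.support_append] at hnd
          have hw1 : w ∈ (p.takeUntil v hv).support := SimpleGraph.Walk.start_mem_support _
          rw [← SimpleGraph.Walk.cons_tail_support (p.dropUntil v hv), List.mem_cons] at hmem
          rcases hmem with rfl | hmem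
          · exact hFvw.ne rfl
          · exact (List.nodup_append.1 hnd).2.2 w hw1 w hmem rfl
        have h1 : (T.deleteEdges {s(v, w)}).Reachable v u := by
          refine ⟨(p.dropUntil v hv).transfer _ fun e he => ?_⟩
          have h2 := (p.dropUntil v hv).edges_subset_edgeSet he
          simp only [SimpleGraph.edgeSet_deleteEdges, Set.mem_diff, Set.mem_singleton_iff]
          refine ⟨SimpleGraph.edgeSet_mono (inf_le_left : F ≤ T) h2, fun e' => ?_⟩
          subst e'
          exact hwnot ((p.dropUntil v hv).snd_mem_support_of_mem_edges he)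
        exact hbr hFvw.1 (h1.trans hreach.symm)
      · refine huB (mem_filter.2 ⟨mem_univ _, ⟨p.transfer _ fun e he => ?_⟩⟩)
        induction e using Sym2.ind with
        | _ x y =>
          rw [SimpleGraph.mem_edgeSet, SimpleGraph.deleteIncidenceSet_adj]
          exact ⟨p.adj_of_mem_edges he, fun h => hv (h ▸ p.fst_mem_support_of_mem_edges he),
            fun h => hv (h ▸ p.snd_mem_support_of_mem_edges he)⟩
    set T' := T.deleteEdges {s(v, w)} ⊔ SimpleGraph.edge w u
    have hT'G : T' ≤ G := sup_le ((SimpleGraph.deleteEdges_le _).trans hTG)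
      (by intro x y h; simp [SimpleGraph.edge_adj] at h
          rcases h.1 with ⟨rfl, rfl⟩ | ⟨rfl, rfl⟩
          exacts [hwu, hwu.symm])
    have hout : (outPairs f T').card ≤ (outPairs f T).card := card_le_card fun q hq => by
      obtain ⟨h1, h2⟩ := mem_outPairs.1 hq
      rcases swap_adj h1 with h | ⟨e1, e2⟩ | ⟨e1, e2⟩
      · exact mem_outPairs.2 ⟨h.1, h2⟩
      · exact absurd (by rw [e1, e2]; exact hfwu) h2
      · exact absurd (by rw [e1, e2]; exact hfwu.symm) h2
    have hsq := (better T' hT'G (swap_isTree hT hr) hout).2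
    have hadj' : ∀ x y, (T' ⊓ same f).Adj x y →
        (F.Adj x y ∧ s(x, y) ≠ s(v, w)) ∨ (x = w ∧ y = u) ∨ (x = u ∧ y = w) := by
      intro x y h
      rcases swap_adj h.1 with h' | h'
      · exact Or.inl ⟨⟨h'.1, h.2⟩, h'.2⟩
      · exact Or.inr h'
    have hpt : ∀ x, innerDeg f T' x ^ 2 + ((if x = v then a ^ 2 else 0)
        + (if x = u then innerDeg f T u ^ 2 else 0)) ≤ innerDeg f T x ^ 2
        + ((if x = v then (a - 1) ^ 2 else 0) + (if x = u then (innerDeg f T u + 1) ^ 2 else 0)) := by
      intro x
      by_cases hxv : x = v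
      · subst hxv
        have h1 : innerDeg f T' x ≤ a - 1 := by
          rw [innerDeg, show a - 1 = (N.erase w).card by rw [card_erase_of_mem hwN]]
          refine card_le_card fun y hy => ?_
          rcases hadj' x y (mem_innerNbr.1 hy) with h | ⟨h, -⟩ | ⟨h, -⟩
          · refine mem_erase.2 ⟨fun e => h.2 (by rw [e]), mem_innerNbr.2 h.1⟩
          · exact absurd h hFvw.ne
          · exact absurd h.symm huv
        have := Nat.pow_le_pow_left h1 2
        simp [Ne.symm huv, ← hNcard]
        omega
      · by_cases hxu : x = u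
        · subst hxu
          have h1 : innerDeg f T' x ≤ innerDeg f T x + 1 := by
            rw [innerDeg, innerDeg]
            refine le_trans (card_le_card fun y hy => ?_) (card_insert_le w _)
            rcases hadj' x y (mem_innerNbr.1 hy) with h | ⟨h, -⟩ | ⟨-, h⟩
            · exact mem_insert_of_mem (mem_innerNbr.2 h.1)
            · exact absurd h.symm hwu.ne
            · exact mem_insert.2 (Or.inl h)
          have := Nat.pow_le_pow_left h1 2
          simp [hxv]
          omega
        · have h1 : innerDeg f T' x ≤ innerDeg f T x := by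
            rw [innerDeg, innerDeg]
            by_cases hxw : x = w
            · subst hxw
              have hv' : v ∈ innerNbr f T x := mem_innerNbr.2 hFvw.symm
              calc _ ≤ (insert u ((innerNbr f T x).erase v)).card := card_le_card fun y hy => by
                    rcases hadj' x y (mem_innerNbr.1 hy) with h | ⟨-, h⟩ | ⟨h, -⟩
                    · refine mem_insert_of_mem (mem_erase.2 ⟨fun e => h.2 ?_, mem_innerNbr.2 h.1⟩)
                      rw [e, Sym2.eq_swap]
                    · exact mem_insert.2 (Or.inl h)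
                    · exact absurd h hxu
                _ ≤ ((innerNbr f T x).erase v).card + 1 := card_insert_le _ _
                _ = _ := by rw [card_erase_add_one hv']
            · refine card_le_card fun y hy => ?_
              rcases hadj' x y (mem_innerNbr.1 hy) with h | ⟨h, -⟩ | ⟨h, -⟩
              · exact mem_innerNbr.2 h.1
              · exact absurd h hxw
              · exact absurd h hxu
          simp [hxv, hxu]
          exact Nat.pow_le_pow_left h1 2
    have h := sum_le_sum (s := univ) fun x _ => hpt x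
    simp only [sum_add_distrib, sum_ite_eq', mem_univ, if_true] at h
    change sqSum f T' + _ ≤ sqSum f T + _ at h
    obtain ⟨a', ha'⟩ : ∃ a', a = a' + 1 := ⟨a - 1, by omega⟩
    rw [ha'] at h hb
    simp only [Nat.add_sub_cancel] at h
    nlinarith

end Vale.Agent.P061.Dense
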